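import Vale.Agent.P141.H508.OwnC

/-!
# P141, line (A): own energies of a slot by its column energies

A labelled slot `φ x z • w x z`, line energies of `φ` in the second variable at most `e`, column
energies of `w` in the first variable at most `q` (or the slot vanishes on the column).

* `tr_GQ_col` : one square; `ownK_col` : `ownK ≤ e q pwrK`;
* `famK_col` : the killed slot `fC w (kF Λ a K F2)` as a family, own energies summed over `x0` at most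
  `e q D`, `D` the bound of the square energies; no caps, no sup bound of the input.
-/

namespace Vale.Agent.P141.H190

open Finset Matrix
open Vale.Agent.P141.PL (Pt iv ix mem_iv ix_ix cx)
open Vale.Agent.P141.PL.H315 (A2)
open Vale.Agent.P141.H736 (Path)
open Vale.Agent.P141.H958 (Aff mem_Aff PackQ)
open Vale.Agent.P141.H48 (Qth sst BSl ES)
open Vale.Agent.P141.H677 (kF fC)
open Vale.Agent.P141.H205 (FamK ownK pwrK GQ tr_GQ_sq)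

noncomputable section

open scoped Classical

/-- the fourth power functional in both orientations -/
theorem quad {ι : Type*} (I : Finset ι) (Z : Finset ℤ) (f : ι → ℤ → ℝ) :
    ∑ z ∈ Z, ∑ z' ∈ Z, (∑ i ∈ I, f i z * f i z') ^ 2 =
      ∑ i ∈ I, ∑ j ∈ I, (∑ z ∈ Z, f i z * f j z) ^ 2 := by
  have h1 : ∑ z ∈ Z, ∑ z' ∈ Z, (∑ i ∈ I, f i z * f i z') ^ 2 =
      ∑ p ∈ Z ×ˢ Z, ∑ q ∈ I ×ˢ I, f q.1 p.1 * f q.1 p.2 * (f q.2 p.1 * f q.2 p.2) := by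
    rw [sum_product]
    refine sum_congr rfl fun z _ => sum_congr rfl fun z' _ => ?_
    rw [sq, sum_mul_sum, sum_product]
  have h2 : ∑ i ∈ I, ∑ j ∈ I, (∑ z ∈ Z, f i z * f j z) ^ 2 =
      ∑ q ∈ I ×ˢ I, ∑ p ∈ Z ×ˢ Z, f q.1 p.1 * f q.2 p.1 * (f q.1 p.2 * f q.2 p.2) := by
    rw [sum_product]
    refine sum_congr rfl fun i _ => sum_congr rfl fun j _ => ?_
    rw [sq, sum_mul_sum, sum_product]
  rw [h1, h2, sum_comm]
  refine sum_congr rfl fun q _ => sum_congr rfl fun p _ => ?_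
  ring

variable {κ : Type*} [Fintype κ]

theorem dot_sq (a : κ → ℝ) : a ⬝ᵥ a = ∑ l, a l ^ 2 := sum_congr rfl fun _ _ => (sq _).symm

/-- The labelled functional in the other orientation. -/
theorem gram_le (X Z : Finset ℤ) (F w : ℤ → ℤ → κ → ℝ) (φ : ℤ → ℤ → ℝ) {E Q : ℝ}
    (hE : 0 ≤ E) (hF : ∀ x ∈ X, ∀ z ∈ Z, F x z = φ x z • w x z)
    (hφ : ∀ x ∈ X, ∑ z ∈ Z, φ x z ^ 2 ≤ E)
    (hw : ∀ z ∈ Z, (∀ x ∈ X, F x z = 0) ∨ ∑ x ∈ X, w x z ⬝ᵥ w x z ≤ Q) :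
    ∑ z ∈ Z, ∑ z' ∈ Z, (∑ x ∈ X, F x z ⬝ᵥ F x z') ^ 2 ≤
      E * (Q * ∑ x ∈ X, ∑ z ∈ Z, F x z ⬝ᵥ F x z) := by
  have h1 : ∑ z ∈ Z, ∑ z' ∈ Z, (∑ x ∈ X, F x z ⬝ᵥ F x z') ^ 2 =
      ∑ z ∈ Z, ∑ z' ∈ Z, (∑ i ∈ X ×ˢ (univ : Finset κ), F i.1 z i.2 * F i.1 z' i.2) ^ 2 := by
    refine sum_congr rfl fun z _ => sum_congr rfl fun z' _ => ?_
    rw [sum_product]
    rfl
  rw [h1, quad (X ×ˢ (univ : Finset κ)) Z fun i z => F i.1 z i.2]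
  have h2 : ∀ x ∈ X, ∀ x' ∈ X, ∀ l l' : κ, (∑ z ∈ Z, F x z l * F x' z l') ^ 2 ≤
      E * ∑ z ∈ Z, w x z l ^ 2 * F x' z l' ^ 2 := by
    intro x hx x' hx' l l'
    have e1 : ∑ z ∈ Z, F x z l * F x' z l' = ∑ z ∈ Z, φ x z * (w x z l * F x' z l') := by
      refine sum_congr rfl fun z hz => ?_
      rw [hF x hx z hz, Pi.smul_apply, smul_eq_mul, mul_assoc]
    rw [e1]
    refine (sum_mul_sq_le_sq_mul_sq Z _ _).trans ?_
    have e2 : ∑ z ∈ Z, (w x z l * F x' z l') ^ 2 = ∑ z ∈ Z, w x z l ^ 2 * F x' z l' ^ 2 :=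
      sum_congr rfl fun z _ => mul_pow _ _ _
    rw [e2]
    exact mul_le_mul_of_nonneg_right (hφ x hx) (sum_nonneg fun z _ => by positivity)
  have h3 : ∑ i ∈ X ×ˢ (univ : Finset κ), ∑ j ∈ X ×ˢ (univ : Finset κ),
      (∑ z ∈ Z, F i.1 z i.2 * F j.1 z j.2) ^ 2 ≤
      ∑ i ∈ X ×ˢ (univ : Finset κ), ∑ j ∈ X ×ˢ (univ : Finset κ),
        E * ∑ z ∈ Z, w i.1 z i.2 ^ 2 * F j.1 z j.2 ^ 2 :=
    sum_le_sum fun i hi => sum_le_sum fun j hj =>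
      h2 i.1 (mem_product.1 hi).1 j.1 (mem_product.1 hj).1 i.2 j.2
  refine h3.trans ?_
  have h4 : ∑ i ∈ X ×ˢ (univ : Finset κ), ∑ j ∈ X ×ˢ (univ : Finset κ),
        E * ∑ z ∈ Z, w i.1 z i.2 ^ 2 * F j.1 z j.2 ^ 2 =
      E * ∑ z ∈ Z, (∑ x ∈ X, w x z ⬝ᵥ w x z) * ∑ x ∈ X, F x z ⬝ᵥ F x z := by
    simp only [← mul_sum]
    congr 1
    have e3 : ∀ i : ℤ × κ, ∑ j ∈ X ×ˢ (univ : Finset κ), ∑ z ∈ Z,
        w i.1 z i.2 ^ 2 * F j.1 z j.2 ^ 2 = ∑ z ∈ Z, w i.1 z i.2 ^ 2 *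
          ∑ x ∈ X, F x z ⬝ᵥ F x z := by
      intro i
      rw [sum_comm]
      refine sum_congr rfl fun z _ => ?_
      rw [← mul_sum, sum_product]
      congr 1
      exact sum_congr rfl fun x _ => (dot_sq _).symm
    rw [sum_congr rfl fun i _ => e3 i, sum_comm]
    refine sum_congr rfl fun z _ => ?_
    rw [← sum_mul, sum_product]
    congr 1
    exact sum_congr rfl fun x _ => (dot_sq _).symm
  rw [h4]
  refine mul_le_mul_of_nonneg_left ?_ hE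
  have h5 : ∑ x ∈ X, ∑ z ∈ Z, F x z ⬝ᵥ F x z = ∑ z ∈ Z, ∑ x ∈ X, F x z ⬝ᵥ F x z := sum_comm
  rw [h5, mul_sum]
  refine sum_le_sum fun z hz => ?_
  rcases hw z hz with h | h
  · have e0 : ∑ x ∈ X, F x z ⬝ᵥ F x z = 0 :=
      sum_eq_zero fun x hx => by rw [h x hx, zero_dotProduct]
    rw [e0, mul_zero, mul_zero]
  · exact mul_le_mul_of_nonneg_right h (sum_nonneg fun x _ => by rw [dot_sq]; positivity)

/-- **One square.** -/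
theorem tr_GQ_col {k : ℕ} {n m : ℤ} {F w : ℤ → ℤ → κ → ℝ} {φ : ℤ → ℤ → ℝ} {e q : ℝ} (he : 0 ≤ e)
    (hF : ∀ x ∈ iv k n, ∀ z ∈ iv k m, F x z = φ x z • w x z)
    (hφ : ∀ x ∈ iv k n, ∑ z ∈ iv k m, φ x z ^ 2 ≤ e * 2 ^ k)
    (hw : ∀ z ∈ iv k m, (∀ x ∈ iv k n, F x z = 0) ∨
      ∑ x ∈ iv k n, w x z ⬝ᵥ w x z ≤ q * 2 ^ k) :
    (4 : ℝ) ^ k * (GQ k F n m * GQ k F n m).trace ≤
      e * q * ∑ x ∈ iv k n, ∑ z ∈ iv k m, F x z ⬝ᵥ F x z := by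
  rw [tr_GQ_sq]
  have h := gram_le (iv k n) (iv k m) F w φ (by positivity : (0 : ℝ) ≤ e * 2 ^ k) hF hφ hw
  have h4 : (4 : ℝ) ^ k = 2 ^ k * 2 ^ k := by
    rw [← mul_pow]
    norm_num
  have h2 : (0 : ℝ) < 2 ^ k := by positivity
  calc (4 : ℝ) ^ k * ((((2 : ℝ) ^ k * 2 ^ k) ^ 2)⁻¹ *
        ∑ y ∈ iv k m, ∑ y' ∈ iv k m, (∑ x ∈ iv k n, F x y ⬝ᵥ F x y') ^ 2)
      ≤ (4 : ℝ) ^ k * ((((2 : ℝ) ^ k * 2 ^ k) ^ 2)⁻¹ *
        (e * 2 ^ k * (q * 2 ^ k * ∑ x ∈ iv k n, ∑ z ∈ iv k m, F x z ⬝ᵥ F x z))) := by gcongr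
    _ = e * q * ∑ x ∈ iv k n, ∑ z ∈ iv k m, F x z ⬝ᵥ F x z := by
      rw [h4]
      field_simp

/-- **Own energies by square energies.** -/
theorem ownK_col {N : ℕ} {R S : ℤ} {Q : ℕ → ℤ → ℤ → Prop} {F w : ℕ → ℤ → ℤ → κ → ℝ}
    {φ : ℕ → ℤ → ℤ → ℝ} {e q : ℝ} (he : 0 ≤ e)
    (h : ∀ k < N, ∀ n ∈ iv (N - k) R, ∀ m ∈ iv (N - k) S,
      (∀ x ∈ iv k n, ∀ z ∈ iv k m, F (k + 1) x z = φ (k + 1) x z • w (k + 1) x z) ∧
      (∀ x ∈ iv k n, ∑ z ∈ iv k m, φ (k + 1) x z ^ 2 ≤ e * 2 ^ k) ∧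
      ∀ z ∈ iv k m, (∀ x ∈ iv k n, F (k + 1) x z = 0) ∨
        ∑ x ∈ iv k n, w (k + 1) x z ⬝ᵥ w (k + 1) x z ≤ q * 2 ^ k) :
    ownK N R S Q F ≤ e * q * pwrK N R S Q F := by
  unfold ownK pwrK
  rw [mul_sum]
  refine sum_le_sum fun i hi => ?_
  rw [mem_Aff] at hi
  obtain ⟨h1, h2, h3⟩ := h i.1 hi.1 i.2.1 hi.2.1 i.2.2 hi.2.2.1
  exact tr_GQ_col he h1 h2 h3

/-- **The killed slot as a family, own energies by the columns of the vectors.** `w` any part of the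
class vectors (for example `v` on a set). -/
theorem famK_col {Λ : ℝ} {a : ℤ × ℤ → ℝ} {K : ℕ} {F2 : ℕ → Pt → ℝ} {w : ℤ → ℤ → κ → ℝ}
    {n : ℕ} {e cP s q : ℝ} (hΛ : 1 ≤ Λ) (hcP : 0 ≤ cP) (h : ES n e cP F2) (hK : K ≤ n)
    {x1 x3 : ℤ} (hs : A2 K a x1 x3 ≤ s)
    (ha : ∀ x ∈ iv K (ix K x1), ∀ z ∈ iv K (ix K x3),
      0 ≤ a (x, z) ∧ a (x, z) ≤ 1 ∧ w x z ⬝ᵥ w x z ≤ a (x, z) ^ 2)
    (hq : 0 ≤ q)
    (hcol : ∀ k < K, ∀ i ∈ iv (K - k) (ix K x1), ∀ j ∈ iv (K - k) (ix K x3), ∀ z ∈ iv k j,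
      (∀ x ∈ iv k i, sst Λ a K (k + 1) x z) ∨ ∑ x ∈ iv k i, w x z ⬝ᵥ w x z ≤ q * 2 ^ k) :
    ∃ Q : ℕ → Pt → Prop, ∀ t : ℤ,
    FamK K (ix K x1) (ix K x3) (iv K t) (fun x0 => Qth Λ a K Q x0)
      (fun x0 k x z => fC w (kF Λ a K F2) x0 k z x) (cP + 2)
      (e * q * (4 * Λ * (cP + 2) * e * s * 8 ^ K))
      (4 * Λ * (cP + 2) * e * s * 8 ^ K) := by
  have hes := h
  obtain ⟨he, Q, hB⟩ := h
  -- the family with the crude own energies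
  have h1 := fun t => H508.famK_C hΛ he hcP hB hK
    (fun x hx z hz => ⟨(ha x hx z hz).1, (ha x hx z hz).2.2⟩) t
  refine ⟨Q, fun t => ?_⟩
  have h2 := h1 t
  have hp : ∑ i ∈ iv K t, pwrK K (ix K x1) (ix K x3) (Qth Λ a K Q i)
      (fun k x z => fC w (kF Λ a K F2) i k z x) ≤ 4 * Λ * (cP + 2) * e * s * 8 ^ K :=
    h2.pow.trans (by gcongr)
  refine ⟨h2.path, h2.zero, h2.pack, ?_, hp⟩
  refine le_trans ?_ (mul_le_mul_of_nonneg_left hp (mul_nonneg he hq))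
  rw [mul_sum]
  refine sum_le_sum fun x0 _ => ?_
  refine ownK_col (w := fun _ => w) (φ := fun k x z => kF Λ a K F2 k (x0, x, z)) he
    fun k hk i hi j hj => ⟨fun x _ z _ => rfl, fun x _ => ?_, fun z hz => ?_⟩
  · refine (sum_le_sum fun z _ => ?_).trans (hB.l2 k (lt_of_lt_of_le hk hK) j x0 x)
    show kF Λ a K F2 (k + 1) (x0, x, z) ^ 2 ≤ F2 (k + 1) (x0, x, z) ^ 2
    unfold kF
    by_cases hc : k + 1 = 0 ∨ sst Λ a K (k + 1) x z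
    · rw [if_pos hc, zero_pow two_ne_zero]
      exact sq_nonneg _
    · rw [if_neg hc]
  · rcases hcol k hk i hi j hj z hz with h3 | h3
    · left
      intro x hx
      show kF Λ a K F2 (k + 1) (x0, x, z) • w x z = 0
      unfold kF
      rw [if_pos (Or.inr (h3 x hx)), zero_smul]
    · exact Or.inr h3

/-- the class vectors on a set of pairs `(x1, x3)` -/
def on (D : ℤ → ℤ → Prop) (v : ℤ → ℤ → κ → ℝ) (x z : ℤ) : κ → ℝ := if D x z then v x z else 0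

/-- **The slot `C` of class data on a set with small columns**, in the letters of
`H205.NS_nf3_le`. -/
theorem famK_D {Λ : ℝ} {K n : ℕ} {ez cP s r P q : ℝ} {U : PL.H315.Tri} {g : ℤ → ℤ → ℝ}
    {u v : ℤ → ℤ → κ → ℝ} {F2 : ℕ → Pt → ℝ} {x : Pt} (hΛ : 1 ≤ Λ) (hcP : 0 ≤ cP)
    (h : ES n ez cP F2) (hK : K ≤ n) (hc : H305.Cls K x s r P U g u v) (hq : 0 ≤ q)
    (D : ℤ → ℤ → Prop)
    (hcol : ∀ k < K, ∀ i ∈ iv (K - k) (cx K x).1, ∀ j ∈ iv (K - k) (cx K x).2.2, ∀ z ∈ iv k j,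
      (∀ w ∈ iv k i, sst Λ U.2.1 K (k + 1) w z) ∨
        (((iv k i).filter fun w => D w z).card : ℝ) ≤ q * 2 ^ k) :
    ∃ Q : ℕ → Pt → Prop, ∀ t : ℤ,
    FamK K (cx K x).1 (cx K x).2.2 (iv K t) (fun x0 => Qth Λ U.2.1 K Q x0)
      (fun x0 k x z => fC (on D v) (kF Λ U.2.1 K F2) x0 k z x) (cP + 2)
      (ez * q * (4 * Λ * (cP + 2) * ez * s * 8 ^ K))
      (4 * Λ * (cP + 2) * ez * s * 8 ^ K) := by
  have h0 : ∀ w ∈ iv K (cx K x).1, ∀ z ∈ iv K (cx K x).2.2,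
      0 ≤ U.2.1 (w, z) ∧ U.2.1 (w, z) ≤ 1 ∧ v w z ⬝ᵥ v w z ≤ U.2.1 (w, z) ^ 2 := by
    intro w hw z hz
    have hw' : w ∈ PL.H315.iv K x.1 := by
      rw [H769.iv_pt]
      exact hw
    have hz' : z ∈ PL.H315.iv K x.2.2 := by
      rw [H769.iv_pt]
      exact hz
    have h1 := hc.U_v w hw' z hz'
    exact ⟨h1.1, h1.2, hc.v_le w hw' z hz'⟩
  have hle : ∀ w z, on D v w z ⬝ᵥ on D v w z ≤ if D w z then v w z ⬝ᵥ v w z else 0 := by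
    intro w z
    unfold on
    split_ifs
    · exact le_rfl
    · rw [zero_dotProduct]
  refine famK_col hΛ hcP h hK hc.U_v2 (fun w hw z hz => ?_) hq fun k hk i hi j hj z hz => ?_
  · obtain ⟨a1, a2, a3⟩ := h0 w hw z hz
    refine ⟨a1, a2, (hle w z).trans ?_⟩
    split_ifs
    · exact a3
    · exact sq_nonneg _
  · rcases hcol k hk i hi j hj z hz with h3 | h3
    · exact Or.inl h3
    · right
      refine le_trans ?_ h3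
      rw [card_filter]
      push_cast
      refine sum_le_sum fun w hw => (hle w z).trans ?_
      split_ifs
      · obtain ⟨a1, a2, a3⟩ := h0 w (H508.root_mem hk.le hi hw) z (H508.root_mem hk.le hj hz)
        nlinarith
      · exact le_rfl

end

end Vale.Agent.P141.H190
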