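import Vale.Agent.P141.H419.TVpg
import Vale.Agent.P141.H336.TVr

/-!
# P141, line (A), (TI): hub `x1`, moving weight, numbers per lag

`WFamL` : `H419.TVpg.WFam` with one number for every lag `r = a - k`; the energy is asked only at the
first hub scale. `wl N f = ∑ r ≤ N, (3/4)^r f r`.

* `TV_stepL` : the energy `TV` from one step distances, per lag;
* `WFamL.own_diag`, `WFamL.top` : own defects and the top energy of every diagonal;
* `WFamL.OM`, `WFamL.OO` : the two own numbers of `WPair.total` (lag `0` only);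
* `WFamL.TV_pg` : `TV (Vf s Sr Θ G) ≤ 365 τ² s (wl N Ow) + 108 (τ s) (2 + τ β⁻¹) (wl N ZQ)`.
-/

set_option linter.unusedSectionVars false

namespace Vale.Agent.P141.H190.TVpgL

open Finset Matrix Vale.Agent.P075 Vale.Agent.P141.PL Vale.Agent.P141.PL.H103 Vale.Agent.P141.H103
open Vale.Agent.P141.H389 Vale.Agent.P141.H505 Vale.Agent.P141.H336
open Vale.Agent.P141.H585.PairCh Vale.Agent.P141.H585.PairO
open Vale.Agent.P141.H419.PairW Vale.Agent.P141.H419.PairB Vale.Agent.P141.H419.TVpg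

noncomputable section

/-- the weighted sum over all lags -/
def wl (N : ℕ) (f : ℕ → ℝ) : ℝ := ∑ r ∈ range (N + 1), (3 / 4 : ℝ) ^ r * f r

theorem wl_ge {N : ℕ} {f : ℕ → ℝ} (hf : ∀ r, 0 ≤ f r) : f 0 ≤ wl N f := by
  have h2 : (3 / 4 : ℝ) ^ 0 * f 0 ≤ ∑ r ∈ range (N + 1), (3 / 4 : ℝ) ^ r * f r :=
    single_le_sum (f := fun r => (3 / 4 : ℝ) ^ r * f r)
      (fun r _ => mul_nonneg (by positivity) (hf r)) (mem_range.2 (by omega))
  rw [pow_zero, one_mul] at h2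
  exact h2

theorem wl_nonneg {N : ℕ} {f : ℕ → ℝ} (hf : ∀ r, 0 ≤ f r) : 0 ≤ wl N f :=
  sum_nonneg fun r _ => mul_nonneg (by positivity) (hf r)

theorem wl_mono {N : ℕ} {f g : ℕ → ℝ} (h : ∀ r, f r ≤ g r) : wl N f ≤ wl N g :=
  sum_le_sum fun r _ => mul_le_mul_of_nonneg_left (h r) (by positivity)

theorem wl_add (N : ℕ) (f g : ℕ → ℝ) : wl N (fun r => f r + g r) = wl N f + wl N g := by
  unfold wl
  rw [← sum_add_distrib]
  exact sum_congr rfl fun r _ => by ring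

theorem wl_mul (N : ℕ) (c : ℝ) (f : ℕ → ℝ) : wl N (fun r => c * f r) = c * wl N f := by
  unfold wl
  rw [mul_sum]
  exact sum_congr rfl fun r _ => by ring

theorem wl_sum {I : Type*} (t : Finset I) (N : ℕ) (f : I → ℕ → ℝ) :
    ∑ i ∈ t, wl N (f i) = wl N fun r => ∑ i ∈ t, f i r := by
  unfold wl
  rw [sum_comm]
  exact sum_congr rfl fun r _ => by rw [← mul_sum]

theorem wl_const (N : ℕ) {c : ℝ} (hc : 0 ≤ c) : wl N (fun _ => c) ≤ 4 * c := by
  unfold wl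
  rw [← sum_mul]
  exact mul_le_mul_of_nonneg_right (geo _) hc

/-! ### The energy `TV` from one step distances, per lag -/

section step

variable {ι : ℕ → Type*} [∀ k, Fintype (ι k)] [∀ k, DecidableEq (ι k)]

theorem TV_stepL {k₀ N : ℕ} (hkN : k₀ ≤ N) {R S : ℤ}
    {V : ∀ k, ℕ → ℤ → ℤ → Matrix (ι k) (ι k) ℝ}
    {q : ℕ → ℕ → ℤ → ℤ → ℝ} {e : ℝ} {E Q : ℕ → ℝ} (nE : ∀ r, 0 ≤ E r) (nQ : ∀ r, 0 ≤ Q r)
    (st : ∀ k a n m, k₀ ≤ k → k ≤ a → a < N →
      H389.sq (V k a (2 * n) m - V k (a + 1) n m) + H389.sq (V k a (2 * n + 1) m - V k (a + 1) n m)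
        ≤ q k a n m)
    (hE0 : EW N R S k₀ (V k₀) k₀ ≤ e)
    (hE : ∀ r, k₀ + r ≤ N → EW N R S (N - r) (V (N - r)) N ≤ E r)
    (hQ : ∀ r, ∑ k ∈ Ico k₀ (N - r), bsum N R S k (k + r + 1) (fun n m => q k (k + r) n m)
      ≤ Q r) :
    TV k₀ N R S V ≤ e + 19 * wl N E + 9 * wl N Q := by
  have hlev : ∀ k r, k₀ ≤ k → k + r < N →
      (2 : ℝ) ^ k * ∑ m ∈ iv (N - k) S, lvV N R (fun a n => V k a n m) (k + r)
      ≤ (1 / 2) * bsum N R S k (k + r + 1) (fun n m => q k (k + r) n m) := by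
    intro k r h1 h2
    have e1 : (2 : ℝ) ^ k * ∑ m ∈ iv (N - k) S, lvV N R (fun a n => V k a n m) (k + r)
        = (1 / 2) * bsum N R S k (k + r + 1) fun n m =>
          (H389.sq (V k (k + r) (2 * n) m - V k (k + r + 1) n m)
            + H389.sq (V k (k + r) (2 * n + 1) m - V k (k + r + 1) n m)) := by
      unfold lvV bsum
      rw [← mul_sum, pow_succ]
      ring
    rw [e1]
    refine mul_le_mul_of_nonneg_left (bsum_mono fun n m => ?_) (by norm_num)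
    exact st k (k + r) n m h1 (by omega) h2
  have hdiag : ∀ r, ∑ k ∈ Ico k₀ (N - r),
      ((2 : ℝ) ^ k * ∑ m ∈ iv (N - k) S, lvV N R (fun a n => V k a n m) (k + r))
      ≤ (1 / 2) * Q r := by
    intro r
    calc ∑ k ∈ Ico k₀ (N - r), ((2 : ℝ) ^ k * ∑ m ∈ iv (N - k) S,
          lvV N R (fun a n => V k a n m) (k + r))
        ≤ ∑ k ∈ Ico k₀ (N - r), (1 / 2) * bsum N R S k (k + r + 1) (fun n m => q k (k + r) n m) :=
          sum_le_sum fun k hk => by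
            have := mem_Ico.1 hk
            exact hlev k r this.1 (by omega)
      _ ≤ (1 / 2) * Q r := by
          rw [← mul_sum]
          exact mul_le_mul_of_nonneg_left (hQ r) (by norm_num)
  have hall := diag_sumR (k₀ := k₀) (N := N)
    (f := fun k r => (2 : ℝ) ^ k * ∑ m ∈ iv (N - k) S,
      lvV N R (fun a n => V k a n m) (k + r)) (B := fun r => (1 / 2) * Q r) hdiag
      (fun r => mul_nonneg (by norm_num) (nQ r))
  have hall' : ∑ r ∈ range (N + 1), (3 / 4 : ℝ) ^ r * ((1 / 2) * Q r) = (1 / 2) * wl N Q :=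
    wl_mul N (1 / 2) Q
  rw [hall'] at hall
  have htop : ∑ k ∈ Ico k₀ N, (3 / 4 : ℝ) ^ (N - k) * EW N R S k (V k) N ≤ wl N E := by
    have t1 : ∑ k ∈ Ico k₀ N, (3 / 4 : ℝ) ^ (N - k) * EW N R S k (V k) N
        ≤ ∑ k ∈ Ico k₀ N, (3 / 4 : ℝ) ^ (N - k) * E (N - k) := by
      refine sum_le_sum fun k hk => ?_
      obtain ⟨k1, k2⟩ := mem_Ico.1 hk
      have := hE (N - k) (by omega)
      rw [show N - (N - k) = k by omega] at this
      exact mul_le_mul_of_nonneg_left this (by positivity)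
    have t2 : ∑ k ∈ Ico k₀ N, (3 / 4 : ℝ) ^ (N - k) * E (N - k)
        = ∑ r ∈ (Ico k₀ N).image (fun k => N - k), (3 / 4 : ℝ) ^ r * E r := by
      rw [sum_image]
      intro a ha b hb hab
      have ha' := mem_Ico.1 (Finset.mem_coe.1 ha)
      have hb' := mem_Ico.1 (Finset.mem_coe.1 hb)
      have : N - a = N - b := hab
      omega
    have t3 : ∑ r ∈ (Ico k₀ N).image (fun k => N - k), (3 / 4 : ℝ) ^ r * E r
        ≤ ∑ r ∈ range (N + 1), (3 / 4 : ℝ) ^ r * E r := by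
      refine sum_le_sum_of_subset_of_nonneg ?_ fun r _ _ =>
        mul_nonneg (by positivity) (nE r)
      intro r hr
      obtain ⟨k, _, rfl⟩ := mem_image.1 hr
      rw [mem_range]
      omega
    unfold wl
    linarith
  have hSVM : ∀ k, SVM N k R S (V k)
      = ∑ r ∈ range (N - k), (3 / 4 : ℝ) ^ r * ((2 : ℝ) ^ k * ∑ m ∈ iv (N - k) S,
          lvV N R (fun a n => V k a n m) (k + r))
        + (3 / 4 : ℝ) ^ (N - k) * EW N R S k (V k) N := by
    intro k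
    unfold SVM SV
    rw [EW_eq, sum_add_distrib, mul_add, sum_comm]
    congr 1
    · rw [mul_sum]
      refine sum_congr rfl fun r _ => ?_
      rw [← mul_sum]
      ring
    · rw [← mul_sum]
      ring
  have hsum : ∑ k ∈ Ico k₀ N, SVM N k R S (V k) ≤ (1 / 2) * wl N Q + wl N E := by
    simp only [hSVM, sum_add_distrib]
    linarith
  have h2 := hE 0 (by omega)
  rw [Nat.sub_zero] at h2
  have h3 : E 0 ≤ wl N E := wl_ge nE
  unfold TV
  linarith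

end step

/-! ### The families -/

/-- the families of the second slot at the hub, numbers per lag -/
structure WFamL (k₀ N : ℕ) (R S : ℤ) {ι : ℕ → Type*} [∀ k, Fintype (ι k)]
    [∀ k, DecidableEq (ι k)] (μ : ℝ) (J : ℕ) (τ β : ℝ)
    (Sr Θ G E M : ∀ k, ℕ → ℤ → ℤ → Matrix (ι k) (ι k) ℝ)
    (rr : ∀ k, Matrix (ι (k + 1)) (ι (k + 1)) ℝ) (p : ℕ → ℕ → ℤ → ℤ → ℝ)
    (H ZM ZE ZQ Qm : ℕ → ℝ) : Prop where
  hkN : k₀ ≤ N
  hμ : 0 < μ
  hτ : 0 ≤ τ
  hβ : 0 < β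
  pS : ∀ k a n m, (Sr k a n m).PosSemidef
  uS : ∀ k a n m, IsUnit (Sr k a n m).det
  bS : ∀ k a n m, (Sr k a n m * Sr k a n m - β • 1).PosSemidef
  sΘ : ∀ k a n m, (Θ k a n m)ᵀ = Θ k a n m
  tΘ : ∀ k a n m, (τ • (Sr k a n m * Sr k a n m) - Θ k a n m * Θ k a n m).PosSemidef
  pG : ∀ k a n m, (G k a n m).PosSemidef
  sM : ∀ k a n m, (M k a n m)ᵀ = M k a n m
  pE : ∀ k a n m, (E k a n m).PosSemidef
  par : ∀ k a n m, k₀ ≤ k → k ≤ a → a < N →
    G k (a + 1) n m = (1 / 2 : ℝ) • (G k a (2 * n) m + G k a (2 * n + 1) m)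
  S0 : ∀ k a n m, k₀ ≤ k → k ≤ a → a < N → Sr k a (2 * n) m * Sr k a (2 * n) m
    = Sr k (a + 1) n m * Sr k (a + 1) n m - E k a n m + M k a n m
  S1 : ∀ k a n m, k₀ ≤ k → k ≤ a → a < N → Sr k a (2 * n + 1) m * Sr k a (2 * n + 1) m
    = Sr k (a + 1) n m * Sr k (a + 1) n m - E k a n m - M k a n m
  Θ0 : ∀ k a n m, k₀ ≤ k → k ≤ a → a < N →
    Θ k a (2 * n) m = Θ k (a + 1) n m - E k a n m + M k a n m
  Θ1 : ∀ k a n m, k₀ ≤ k → k ≤ a → a < N →
    Θ k a (2 * n + 1) m = Θ k (a + 1) n m - E k a n m - M k a n m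
  hr : ∀ k, (rr k)ᵀ = rr k
  hr2 : ∀ k, rr k * rr k = 1
  rS : ∀ k a n m, rr k * Sr (k + 1) a n m = Sr (k + 1) a n m * rr k
  rΘ : ∀ k a n m, rr k * Θ (k + 1) a n m = Θ (k + 1) a n m * rr k
  cap0 : ∀ k a n m, k₀ ≤ k → k ≤ a → a < N →
    (1 - (μ / 4 ^ J) • (Sr k (a + 1) n m * G k a (2 * n) m * Sr k (a + 1) n m)).PosSemidef
  cap1 : ∀ k a n m, k₀ ≤ k → k ≤ a → a < N →
    (1 - (μ / 4 ^ J) • (Sr k (a + 1) n m * G k a (2 * n + 1) m * Sr k (a + 1) n m)).PosSemidef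
  mid : ∀ k a n m, k₀ ≤ k → k + 1 ≤ a → a ≤ N →
    (1 / 2) * SG μ J (Sr (k + 1) a n m * G (k + 1) a n m * Sr (k + 1) a n m
        + rr k * (Sr (k + 1) a n m * G (k + 1) a n m * Sr (k + 1) a n m) * rr k)
      ≤ (1 / 2) * (SG μ J (Sr k a n (2 * m) * G k a n (2 * m) * Sr k a n (2 * m))
        + SG μ J (Sr k a n (2 * m + 1) * G k a n (2 * m + 1) * Sr k a n (2 * m + 1))) + p k a n m
  nH : ∀ r, 0 ≤ H r
  nZM : ∀ r, 0 ≤ ZM r
  nZE : ∀ r, 0 ≤ ZE r
  nZQ : ∀ r, 0 ≤ ZQ r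
  nQm : ∀ r, 0 ≤ Qm r
  hH : ∀ r, k₀ + r ≤ N →
    bsum N R S k₀ (k₀ + r) (fun n m =>
      (Sr k₀ (k₀ + r) n m * Sr k₀ (k₀ + r) n m * G k₀ (k₀ + r) n m).trace) ≤ H r
  hZM : ∀ r, ∑ k ∈ Ico k₀ (N - r), bsum N R S k (k + r + 1) (fun n m =>
    eM (Sr k (k + r + 1) n m) (M k (k + r) n m) (G k (k + r) (2 * n) m)
      (G k (k + r) (2 * n + 1) m)) ≤ ZM r
  hZE : ∀ r, ∑ k ∈ Ico k₀ (N - r), bsum N R S k (k + r + 1) (fun n m =>
    eE (E k (k + r) n m) (G k (k + r) (2 * n) m) (G k (k + r) (2 * n + 1) m)) ≤ ZE r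
  hZQ : ∀ r, ∑ k ∈ Ico k₀ (N - r), bsum N R S k (k + r + 1) (fun n m =>
    eQ (E k (k + r) n m) (M k (k + r) n m) (G k (k + r) (2 * n) m)
      (G k (k + r) (2 * n + 1) m)) ≤ ZQ r
  hQm : ∀ r, ∑ k ∈ Ico k₀ (N - r), bsum N R S (k + 1) (k + 1 + r)
    (fun n m => p k (k + 1 + r) n m) ≤ Qm r

section fam

variable {k₀ N : ℕ} {R S : ℤ} {ι : ℕ → Type*} [∀ k, Fintype (ι k)] [∀ k, DecidableEq (ι k)]
  {μ : ℝ} {J : ℕ} {τ β : ℝ} {Sr Θ G E M : ∀ k, ℕ → ℤ → ℤ → Matrix (ι k) (ι k) ℝ}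
  {rr : ∀ k, Matrix (ι (k + 1)) (ι (k + 1)) ℝ} {p : ℕ → ℕ → ℤ → ℤ → ℝ} {H ZM ZE ZQ Qm : ℕ → ℝ}

/-- the own number of the lag `r` -/
def OwL (J : ℕ) (H ZM ZE Qm : ℕ → ℝ) (r : ℕ) : ℝ := Ow J (H r) (ZM r) (ZE r) (Qm r)

theorem wl_OwL (N J : ℕ) (H ZM ZE Qm : ℕ → ℝ) :
    wl N (OwL J H ZM ZE Qm) = Ow J (wl N H) (wl N ZM) (wl N ZE) (wl N Qm) := by
  unfold Ow
  rw [← wl_mul, ← wl_mul, ← wl_mul, ← wl_add, ← wl_add, ← wl_add]
  rfl

theorem OwL_sum {I : Type*} (t : Finset I) (J : ℕ) (H ZM ZE Qm : I → ℕ → ℝ) (r : ℕ) :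
    ∑ i ∈ t, OwL J (H i) (ZM i) (ZE i) (Qm i) r
      = OwL J (fun r => ∑ i ∈ t, H i r) (fun r => ∑ i ∈ t, ZM i r) (fun r => ∑ i ∈ t, ZE i r)
        (fun r => ∑ i ∈ t, Qm i r) r := by
  unfold OwL Ow
  rw [sum_add_distrib, sum_add_distrib, sum_add_distrib, ← mul_sum, ← mul_sum, ← mul_sum]

theorem WFamL.pX (h : WFamL k₀ N R S μ J τ β Sr Θ G E M rr p H ZM ZE ZQ Qm) (k a : ℕ) (n m : ℤ) :
    (Sr k a n m * G k a n m * Sr k a n m).PosSemidef :=
  psd_conj_symm (h.pG k a n m) (psd_isSymm (h.pS k a n m))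

theorem WFamL.Ow_ge (h : WFamL k₀ N R S μ J τ β Sr Θ G E M rr p H ZM ZE ZQ Qm) (r : ℕ) :
    H r ≤ OwL J H ZM ZE Qm r := by
  have h1 := h.nH r
  have h2 := h.nZM r
  have h3 := h.nZE r
  have h4 := h.nQm r
  have hJ : (0 : ℝ) ≤ J := Nat.cast_nonneg J
  unfold OwL Ow
  have a1 : 0 ≤ (J : ℝ) * H r := by positivity
  have a2 : 0 ≤ 32 * ((J : ℝ) + 1) ^ 3 * ZM r := by positivity
  have a3 : 0 ≤ (1 / 2) * ((J : ℝ) + 1) * ZE r := by positivity
  linarith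

theorem WFamL.Ow_nonneg (h : WFamL k₀ N R S μ J τ β Sr Θ G E M rr p H ZM ZE ZQ Qm) (r : ℕ) :
    0 ≤ OwL J H ZM ZE Qm r := (h.nH r).trans (h.Ow_ge r)

/-- **Own defects of the outer and of the middle steps and the top energy, every diagonal.** -/
theorem WFamL.key (h : WFamL k₀ N R S μ J τ β Sr Θ G E M rr p H ZM ZE ZQ Qm) (r : ℕ)
    (hr : k₀ + r ≤ N) :
    ∑ k ∈ Ico k₀ (N - r), (1 / 4) * bsum N R S k (k + r + 1) (fun n m =>
        SD μ J (Sr k (k + r + 1) n m * G k (k + r) (2 * n) m * Sr k (k + r + 1) n m)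
          (Sr k (k + r + 1) n m * G k (k + r) (2 * n + 1) m * Sr k (k + r + 1) n m))
      + ∑ k ∈ Ico k₀ (N - r), bsum N R S (k + 1) (k + 1 + r) (fun n m => (1 / 2) * SC μ J (rr k)
        (Sr (k + 1) (k + 1 + r) n m * G (k + 1) (k + 1 + r) n m * Sr (k + 1) (k + 1 + r) n m))
      + bsum N R S (N - r) (N - r + r) (fun n m =>
        SG μ J (Sr (N - r) (N - r + r) n m * G (N - r) (N - r + r) n m
          * Sr (N - r) (N - r + r) n m))
      ≤ OwL J H ZM ZE Qm r := by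
  have hμ := h.hμ
  have hJ : (0 : ℝ) ≤ J := Nat.cast_nonneg J
  have key := diag (k₀ := k₀) (N := N)
      (E := fun k a => bsum N R S k a fun n m => SG μ J (Sr k a n m * G k a n m * Sr k a n m))
      (G := fun k a => (1 / 4) * bsum N R S k (a + 1) fun n m =>
        SD μ J (Sr k (a + 1) n m * G k a (2 * n) m * Sr k (a + 1) n m)
          (Sr k (a + 1) n m * G k a (2 * n + 1) m * Sr k (a + 1) n m))
      (G' := fun k a => bsum N R S (k + 1) a fun n m => (1 / 2) * SC μ J (rr k)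
        (Sr (k + 1) a n m * G (k + 1) a n m * Sr (k + 1) a n m))
      (q := fun k a => bsum N R S k (a + 1) fun n m =>
        32 * ((J : ℝ) + 1) ^ 3 * eM (Sr k (a + 1) n m) (M k a n m) (G k a (2 * n) m)
          (G k a (2 * n + 1) m)
        + (1 / 2) * ((J : ℝ) + 1) * eE (E k a n m) (G k a (2 * n) m) (G k a (2 * n + 1) m))
      (p := fun k a => bsum N R S (k + 1) a fun n m => p k a n m)
      (fun k a h1 h2 h3 => by
        rw [← bsum_outer h3 R S (fun n m => SG μ J (Sr k a n m * G k a n m * Sr k a n m)),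
          ← bsum_smul, ← bsum_add, ← bsum_add]
        refine bsum_mono fun n m => ?_
        have e := own_outer (h.pS k (a + 1) n m) (h.uS k (a + 1) n m) (h.pS k a (2 * n) m)
          (h.pS k a (2 * n + 1) m) (h.sM k a n m) (h.pE k a n m) (h.S0 k a n m h1 h2 h3)
          (h.S1 k a n m h1 h2 h3) (h.pG k a (2 * n) m) (h.pG k a (2 * n + 1) m) hμ J
          (h.cap0 k a n m h1 h2 h3) (h.cap1 k a n m h1 h2 h3)
        rw [← h.par k a n m h1 h2 h3] at e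
        unfold eM eE
        linarith)
      (fun k a h1 h2 h3 => by
        rw [← bsum_mid (by omega : k < N) R S
          (fun n m => SG μ J (Sr k a n m * G k a n m * Sr k a n m)), ← bsum_add, ← bsum_add]
        refine bsum_mono fun n m => ?_
        have e1 := own_mid (h.pX (k + 1) a n m) (h.hr k) (h.hr2 k) hμ J
        have e2 := h.mid k a n m h1 h2 h3
        linarith)
      r (N - r) (by omega) (by omega)
  have e2 : (bsum N R S k₀ (k₀ + r) fun n m =>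
        SG μ J (Sr k₀ (k₀ + r) n m * G k₀ (k₀ + r) n m * Sr k₀ (k₀ + r) n m))
        ≤ ((J : ℝ) + 1) * H r := by
    have h1 := h.hH r hr
    have h2 : (bsum N R S k₀ (k₀ + r) fun n m =>
          SG μ J (Sr k₀ (k₀ + r) n m * G k₀ (k₀ + r) n m * Sr k₀ (k₀ + r) n m))
          ≤ bsum N R S k₀ (k₀ + r) fun n m => ((J : ℝ) + 1)
            * (Sr k₀ (k₀ + r) n m * Sr k₀ (k₀ + r) n m * G k₀ (k₀ + r) n m).trace := by
      refine bsum_mono fun n m => ?_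
      have e := SG_le (h.pX k₀ (k₀ + r) n m) hμ J
      have e' : (Sr k₀ (k₀ + r) n m * G k₀ (k₀ + r) n m * Sr k₀ (k₀ + r) n m).trace
            = (Sr k₀ (k₀ + r) n m * Sr k₀ (k₀ + r) n m * G k₀ (k₀ + r) n m).trace := by
        rw [Matrix.mul_assoc, trace_mul_comm, Matrix.mul_assoc, trace_mul_comm]
      rwa [e'] at e
    rw [bsum_smul] at h2
    exact h2.trans (mul_le_mul_of_nonneg_left h1 (by positivity))
  have e3 := h.hQm r
  have e4 : ∑ k ∈ Ico k₀ (N - r), bsum N R S k (k + r + 1) (fun n m =>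
        32 * ((J : ℝ) + 1) ^ 3 * eM (Sr k (k + r + 1) n m) (M k (k + r) n m)
          (G k (k + r) (2 * n) m) (G k (k + r) (2 * n + 1) m)
        + (1 / 2) * ((J : ℝ) + 1) * eE (E k (k + r) n m) (G k (k + r) (2 * n) m)
          (G k (k + r) (2 * n + 1) m))
        ≤ 32 * ((J : ℝ) + 1) ^ 3 * ZM r + (1 / 2) * ((J : ℝ) + 1) * ZE r := by
    simp only [bsum_add, bsum_smul, sum_add_distrib, ← mul_sum]
    exact add_le_add (mul_le_mul_of_nonneg_left (h.hZM r) (by positivity))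
        (mul_le_mul_of_nonneg_left (h.hZE r) (by positivity))
  unfold OwL Ow
  linarith

/-- the defects of the outer steps -/
theorem WFamL.SD_diag (h : WFamL k₀ N R S μ J τ β Sr Θ G E M rr p H ZM ZE ZQ Qm) (r : ℕ) :
    ∑ k ∈ Ico k₀ (N - r), bsum N R S k (k + r + 1) (fun n m =>
        SD μ J (Sr k (k + r + 1) n m * G k (k + r) (2 * n) m * Sr k (k + r + 1) n m)
          (Sr k (k + r + 1) n m * G k (k + r) (2 * n + 1) m * Sr k (k + r + 1) n m))
      ≤ 4 * OwL J H ZM ZE Qm r := by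
  by_cases hr : k₀ + r ≤ N
  · have h1 := h.key r hr
    have h2 : 0 ≤ ∑ k ∈ Ico k₀ (N - r), bsum N R S (k + 1) (k + 1 + r) (fun n m =>
        (1 / 2) * SC μ J (rr k)
          (Sr (k + 1) (k + 1 + r) n m * G (k + 1) (k + 1 + r) n m * Sr (k + 1) (k + 1 + r) n m)) :=
      sum_nonneg fun k _ => bsum_nonneg fun n m => mul_nonneg (by norm_num)
        (SC_nonneg (h.pX _ _ _ _) (h.hr k) h.hμ J)
    have h3 : 0 ≤ bsum N R S (N - r) (N - r + r) (fun n m =>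
        SG μ J (Sr (N - r) (N - r + r) n m * G (N - r) (N - r + r) n m
          * Sr (N - r) (N - r + r) n m)) :=
      bsum_nonneg fun n m => SG_nonneg (h.pX _ _ _ _) h.hμ J
    rw [← mul_sum] at h1
    linarith
  · rw [Ico_eq_empty (by omega), sum_empty]
    have := h.Ow_nonneg r
    linarith

/-- the gains of the middle steps -/
theorem WFamL.SC_diag (h : WFamL k₀ N R S μ J τ β Sr Θ G E M rr p H ZM ZE ZQ Qm) (r : ℕ) :
    ∑ k ∈ Ico k₀ (N - r), bsum N R S (k + 1) (k + 1 + r) (fun n m => SC μ J (rr k)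
        (Sr (k + 1) (k + 1 + r) n m * G (k + 1) (k + 1 + r) n m * Sr (k + 1) (k + 1 + r) n m))
      ≤ 2 * OwL J H ZM ZE Qm r := by
  by_cases hr : k₀ + r ≤ N
  · have h1 := h.key r hr
    have h2 : 0 ≤ ∑ k ∈ Ico k₀ (N - r), (1 / 4) * bsum N R S k (k + r + 1) (fun n m =>
        SD μ J (Sr k (k + r + 1) n m * G k (k + r) (2 * n) m * Sr k (k + r + 1) n m)
          (Sr k (k + r + 1) n m * G k (k + r) (2 * n + 1) m * Sr k (k + r + 1) n m)) :=
      sum_nonneg fun k _ => mul_nonneg (by norm_num) (bsum_nonneg fun n m =>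
        SD_nonneg (psd_conj_symm (h.pG _ _ _ _) (psd_isSymm (h.pS _ _ _ _)))
          (psd_conj_symm (h.pG _ _ _ _) (psd_isSymm (h.pS _ _ _ _))) h.hμ J)
    have h3 : 0 ≤ bsum N R S (N - r) (N - r + r) (fun n m =>
        SG μ J (Sr (N - r) (N - r + r) n m * G (N - r) (N - r + r) n m
          * Sr (N - r) (N - r + r) n m)) :=
      bsum_nonneg fun n m => SG_nonneg (h.pX _ _ _ _) h.hμ J
    simp only [bsum_smul, ← mul_sum] at h1 h2
    linarith
  · rw [Ico_eq_empty (by omega), sum_empty]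
    have := h.Ow_nonneg r
    linarith

/-- the energy at the top of every diagonal -/
theorem WFamL.top (h : WFamL k₀ N R S μ J τ β Sr Θ G E M rr p H ZM ZE ZQ Qm) {r : ℕ}
    (hr : k₀ + r ≤ N) :
    bsum N R S (N - r) N (fun n m => SG μ J (Sr (N - r) N n m * G (N - r) N n m
      * Sr (N - r) N n m)) ≤ OwL J H ZM ZE Qm r := by
  have h1 := h.key r hr
  have h2 : 0 ≤ ∑ k ∈ Ico k₀ (N - r), bsum N R S (k + 1) (k + 1 + r) (fun n m =>
      (1 / 2) * SC μ J (rr k)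
        (Sr (k + 1) (k + 1 + r) n m * G (k + 1) (k + 1 + r) n m * Sr (k + 1) (k + 1 + r) n m)) :=
    sum_nonneg fun k _ => bsum_nonneg fun n m => mul_nonneg (by norm_num)
      (SC_nonneg (h.pX _ _ _ _) (h.hr k) h.hμ J)
  have h3 : 0 ≤ ∑ k ∈ Ico k₀ (N - r), (1 / 4) * bsum N R S k (k + r + 1) (fun n m =>
      SD μ J (Sr k (k + r + 1) n m * G k (k + r) (2 * n) m * Sr k (k + r + 1) n m)
        (Sr k (k + r + 1) n m * G k (k + r) (2 * n + 1) m * Sr k (k + r + 1) n m)) :=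
    sum_nonneg fun k _ => mul_nonneg (by norm_num) (bsum_nonneg fun n m =>
      SD_nonneg (psd_conj_symm (h.pG _ _ _ _) (psd_isSymm (h.pS _ _ _ _)))
        (psd_conj_symm (h.pG _ _ _ _) (psd_isSymm (h.pS _ _ _ _))) h.hμ J)
  rw [show N - r + r = N by omega] at h1
  linarith

/-- the own number of the middle steps -/
theorem WFamL.OM (h : WFamL k₀ N R S μ J τ β Sr Θ G E M rr p H ZM ZE ZQ Qm) {j : ℕ} (hj : j ≤ J)
    {s : ℝ} (hs : s = (μ / 4 ^ j)⁻¹) :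
    ∑ k ∈ Ico k₀ N, (4 : ℝ) ^ (k + 1) * ∑ m ∈ iv (N - (k + 1)) S, ∑ n ∈ iv (N - (k + 1)) R,
      gp s (rr k) (Sr (k + 1) (k + 1) n m * G (k + 1) (k + 1) n m * Sr (k + 1) (k + 1) n m)
      ≤ 2 * s * OwL J H ZM ZE Qm 0 := by
  have h4 : 0 < μ / 4 ^ j := div_pos h.hμ (by positivity)
  have hs0 : 0 < s := by rw [hs]; exact inv_pos.2 h4
  have h1 := h.SC_diag 0
  rw [Nat.sub_zero] at h1
  have e : ∀ k, (4 : ℝ) ^ (k + 1) * ∑ m ∈ iv (N - (k + 1)) S, ∑ n ∈ iv (N - (k + 1)) R,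
      gp s (rr k) (Sr (k + 1) (k + 1) n m * G (k + 1) (k + 1) n m * Sr (k + 1) (k + 1) n m)
      = bsum N R S (k + 1) (k + 1) fun n m =>
        gp s (rr k) (Sr (k + 1) (k + 1) n m * G (k + 1) (k + 1) n m * Sr (k + 1) (k + 1) n m) := by
    intro k
    unfold bsum
    rw [← mul_pow]
    norm_num
  simp only [e]
  have h2 : ∑ k ∈ Ico k₀ N, (bsum N R S (k + 1) (k + 1) fun n m =>
        gp s (rr k) (Sr (k + 1) (k + 1) n m * G (k + 1) (k + 1) n m * Sr (k + 1) (k + 1) n m))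
      ≤ ∑ k ∈ Ico k₀ N, bsum N R S (k + 1) (k + 1 + 0) fun n m => s * SC μ J (rr k)
        (Sr (k + 1) (k + 1 + 0) n m * G (k + 1) (k + 1 + 0) n m * Sr (k + 1) (k + 1 + 0) n m) :=
    sum_le_sum fun k _ => bsum_mono fun n m => gp_le (h.pX _ _ _ _) (h.hr k) h.hμ hj hs
  simp only [bsum_smul, ← mul_sum] at h2
  have h3 := mul_le_mul_of_nonneg_left h1 hs0.le
  linarith

/-- the own number of the outer steps -/
theorem WFamL.OO (h : WFamL k₀ N R S μ J τ β Sr Θ G E M rr p H ZM ZE ZQ Qm) {j : ℕ} (hj : j ≤ J)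
    {s : ℝ} (hs : s = (μ / 4 ^ j)⁻¹) :
    ∑ k ∈ Ico k₀ N, (4 : ℝ) ^ (k + 1) * ∑ m ∈ iv (N - (k + 1)) S, ∑ n ∈ iv (N - (k + 1)) R,
      mh (fun i => dls s (Sr k (k + 1) n i * G k k (2 * n) i * Sr k (k + 1) n i)
        (Sr k (k + 1) n i * G k k (2 * n + 1) i * Sr k (k + 1) n i)) m
      ≤ 4 * s * OwL J H ZM ZE Qm 0 := by
  have h4 : 0 < μ / 4 ^ j := div_pos h.hμ (by positivity)
  have hs0 : 0 < s := by rw [hs]; exact inv_pos.2 h4
  have h1 := h.SD_diag 0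
  rw [Nat.sub_zero] at h1
  have e : ∀ k ∈ Ico k₀ N, (4 : ℝ) ^ (k + 1) * ∑ m ∈ iv (N - (k + 1)) S,
      ∑ n ∈ iv (N - (k + 1)) R,
      mh (fun i => dls s (Sr k (k + 1) n i * G k k (2 * n) i * Sr k (k + 1) n i)
        (Sr k (k + 1) n i * G k k (2 * n + 1) i * Sr k (k + 1) n i)) m
      = bsum N R S k (k + 1) fun n m =>
        dls s (Sr k (k + 1) n m * G k k (2 * n) m * Sr k (k + 1) n m)
        (Sr k (k + 1) n m * G k k (2 * n + 1) m * Sr k (k + 1) n m) := by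
    intro k hk
    rw [← bsum_mid (mem_Ico.1 hk).2 R S (fun n m =>
        dls s (Sr k (k + 1) n m * G k k (2 * n) m * Sr k (k + 1) n m)
        (Sr k (k + 1) n m * G k k (2 * n + 1) m * Sr k (k + 1) n m))]
    unfold bsum mh
    rw [← mul_pow]
    norm_num
  rw [sum_congr rfl e]
  have h2 : ∑ k ∈ Ico k₀ N, (bsum N R S k (k + 1) fun n m =>
        dls s (Sr k (k + 1) n m * G k k (2 * n) m * Sr k (k + 1) n m)
        (Sr k (k + 1) n m * G k k (2 * n + 1) m * Sr k (k + 1) n m))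
      ≤ ∑ k ∈ Ico k₀ N, bsum N R S k (k + 0 + 1) fun n m => s *
        SD μ J (Sr k (k + 0 + 1) n m * G k (k + 0) (2 * n) m * Sr k (k + 0 + 1) n m)
          (Sr k (k + 0 + 1) n m * G k (k + 0) (2 * n + 1) m * Sr k (k + 0 + 1) n m) :=
    sum_le_sum fun k _ => bsum_mono fun n m => dls_le
      (psd_conj_symm (h.pG _ _ _ _) (psd_isSymm (h.pS _ _ _ _)))
      (psd_conj_symm (h.pG _ _ _ _) (psd_isSymm (h.pS _ _ _ _))) h.hμ hj hs
  simp only [bsum_smul, ← mul_sum] at h2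
  have h3 := mul_le_mul_of_nonneg_left h1 hs0.le
  linarith

theorem WFamL.sV (h : WFamL k₀ N R S μ J τ β Sr Θ G E M rr p H ZM ZE ZQ Qm) {s : ℝ} (hs : 0 < s)
    (k a : ℕ) (n m : ℤ) : (Vf s Sr Θ G k a n m).PosSemidef :=
  pg_psd hs (h.sΘ k a n m) (psd_sq (psd_isSymm (h.pS k a n m))) (h.pG k a n m)

/-- the energy of the second slot, with the energy of all levels -/
theorem sq_pg_SG {κ : Type*} [Fintype κ] [DecidableEq κ] {s τ : ℝ} (hs : 0 < s) (hτ0 : 0 ≤ τ)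
    {Θ S G : Matrix κ κ ℝ} (hΘ : Θᵀ = Θ)
    (hS : Sᵀ = S) (hSu : IsUnit S.det) (hτ : (τ • (S * S) - Θ * Θ).PosSemidef)
    (hG : G.PosSemidef) {μ : ℝ} (hμ : 0 < μ) {J j : ℕ} (hj : j ≤ J) (hsj : s = (μ / 4 ^ j)⁻¹) :
    H389.sq (pg s Θ (S * S) G) ≤ τ ^ 2 * (4 * s) * SG μ J (S * G * S) := by
  have hX : (S * G * S).PosSemidef := psd_conj_symm hG hS
  have hP : (phs s (S * G * S)).PosSemidef :=
    (phi_psd (hX.smul (α := ℝ) (inv_pos.2 hs).le)).smul hs.le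
  rw [pg_root hs hS hSu hG]
  refine (sq_comp hτ0 hΘ hS hSu hτ hP).trans ?_
  have h := H125.S0.sq_phs_le_SG hX hμ hj
  rw [← hsj] at h
  have := mul_le_mul_of_nonneg_left h (sq_nonneg τ)
  linarith

/-- **The plane energy of the second slot, per lag.** -/
theorem WFamL.TV_pg (h : WFamL k₀ N R S μ J τ β Sr Θ G E M rr p H ZM ZE ZQ Qm) {j : ℕ}
    (hj : j ≤ J) {s : ℝ} (hs : s = (μ / 4 ^ j)⁻¹) :
    TV k₀ N R S (Vf s Sr Θ G) ≤ 365 * τ ^ 2 * s * wl N (OwL J H ZM ZE Qm)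
      + 108 * (τ * s) * (2 + τ * β⁻¹) * wl N ZQ := by
  have h4 : 0 < μ / 4 ^ j := div_pos h.hμ (by positivity)
  have hs0 : 0 < s := by rw [hs]; exact inv_pos.2 h4
  have hτ := h.hτ
  have hβ := h.hβ
  have hc : 0 ≤ 12 * (τ * s) * (2 + τ * β⁻¹) := by positivity
  have key := TV_stepL h.hkN (V := Vf s Sr Θ G) (R := R) (S := S)
    (q := fun k a n m => 8 * τ ^ 2 * dls s
        (Sr k (a + 1) n m * G k a (2 * n) m * Sr k (a + 1) n m)
        (Sr k (a + 1) n m * G k a (2 * n + 1) m * Sr k (a + 1) n m)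
      + 12 * (τ * s) * (2 + τ * β⁻¹)
        * eQ (E k a n m) (M k a n m) (G k a (2 * n) m) (G k a (2 * n + 1) m))
    (e := τ ^ 2 * s * H 0)
    (E := fun r => τ ^ 2 * (4 * s) * OwL J H ZM ZE Qm r)
    (Q := fun r => 8 * τ ^ 2 * (s * (4 * OwL J H ZM ZE Qm r))
      + 12 * (τ * s) * (2 + τ * β⁻¹) * ZQ r)
    (fun r => mul_nonneg (by positivity) (h.Ow_nonneg r))
    (fun r => add_nonneg (mul_nonneg (by positivity) (mul_nonneg hs0.le
      (mul_nonneg (by norm_num) (h.Ow_nonneg r)))) (mul_nonneg hc (h.nZQ r)))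
    (fun k a n m h1 h2 h3 => by
      have e := H784.pg_step' hs0 hβ hτ (h.sΘ k (a + 1) n m) (h.pS k (a + 1) n m)
        (h.sM k a n m) (psd_isSymm (h.pE k a n m)) (h.bS k (a + 1) n m) (h.tΘ k (a + 1) n m)
        (h.pG k a (2 * n) m) (h.pG k a (2 * n + 1) m)
        (by rw [← h.S0 k a n m h1 h2 h3]; exact h.bS k a (2 * n) m)
        (by rw [← h.S1 k a n m h1 h2 h3]; exact h.bS k a (2 * n + 1) m)
        (by rw [← h.S0 k a n m h1 h2 h3, ← h.Θ0 k a n m h1 h2 h3]; exact h.tΘ k a (2 * n) m)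
        (by rw [← h.S1 k a n m h1 h2 h3, ← h.Θ1 k a n m h1 h2 h3]; exact h.tΘ k a (2 * n + 1) m)
      rw [← h.par k a n m h1 h2 h3, ← h.S0 k a n m h1 h2 h3, ← h.Θ0 k a n m h1 h2 h3,
        ← h.S1 k a n m h1 h2 h3, ← h.Θ1 k a n m h1 h2 h3] at e
      exact e)
    (by
      have e1 : EW N R S k₀ (Vf s Sr Θ G k₀) k₀
          = bsum N R S k₀ k₀ fun n m => H389.sq (Vf s Sr Θ G k₀ k₀ n m) := rfl
      rw [e1]
      have e2 : (bsum N R S k₀ k₀ fun n m => H389.sq (Vf s Sr Θ G k₀ k₀ n m))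
          ≤ bsum N R S k₀ k₀ fun n m => τ ^ 2 * s
            * (Sr k₀ k₀ n m * Sr k₀ k₀ n m * G k₀ k₀ n m).trace :=
        bsum_mono fun n m => sq_pg_le hs0 hτ (h.sΘ k₀ k₀ n m) (psd_isSymm (h.pS k₀ k₀ n m))
          (h.uS k₀ k₀ n m) (h.tΘ k₀ k₀ n m) (h.pG k₀ k₀ n m)
      rw [bsum_smul] at e2
      have e3 := h.hH 0 (by simpa using h.hkN)
      rw [Nat.add_zero] at e3
      exact e2.trans (mul_le_mul_of_nonneg_left e3 (by positivity)))
    (fun r hr => by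
      have e1 : EW N R S (N - r) (Vf s Sr Θ G (N - r)) N
          = bsum N R S (N - r) N fun n m => H389.sq (Vf s Sr Θ G (N - r) N n m) := rfl
      rw [e1]
      have e2 : (bsum N R S (N - r) N fun n m => H389.sq (Vf s Sr Θ G (N - r) N n m))
          ≤ bsum N R S (N - r) N fun n m => τ ^ 2 * (4 * s)
            * SG μ J (Sr (N - r) N n m * G (N - r) N n m * Sr (N - r) N n m) :=
        bsum_mono fun n m => sq_pg_SG hs0 hτ (h.sΘ _ _ n m) (psd_isSymm (h.pS _ _ n m))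
          (h.uS _ _ n m) (h.tΘ _ _ n m) (h.pG _ _ n m) h.hμ hj hs
      rw [bsum_smul] at e2
      exact e2.trans (mul_le_mul_of_nonneg_left (h.top hr) (by positivity)))
    (fun r => by
      have e1 := h.SD_diag r
      have e2 := h.hZQ r
      calc ∑ k ∈ Ico k₀ (N - r), bsum N R S k (k + r + 1) (fun n m => 8 * τ ^ 2 * dls s
              (Sr k (k + r + 1) n m * G k (k + r) (2 * n) m * Sr k (k + r + 1) n m)
              (Sr k (k + r + 1) n m * G k (k + r) (2 * n + 1) m * Sr k (k + r + 1) n m)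
            + 12 * (τ * s) * (2 + τ * β⁻¹) * eQ (E k (k + r) n m) (M k (k + r) n m)
              (G k (k + r) (2 * n) m) (G k (k + r) (2 * n + 1) m))
          ≤ ∑ k ∈ Ico k₀ (N - r), bsum N R S k (k + r + 1) (fun n m => 8 * τ ^ 2 * (s * SD μ J
              (Sr k (k + r + 1) n m * G k (k + r) (2 * n) m * Sr k (k + r + 1) n m)
              (Sr k (k + r + 1) n m * G k (k + r) (2 * n + 1) m * Sr k (k + r + 1) n m))
            + 12 * (τ * s) * (2 + τ * β⁻¹) * eQ (E k (k + r) n m) (M k (k + r) n m)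
              (G k (k + r) (2 * n) m) (G k (k + r) (2 * n + 1) m)) :=
            sum_le_sum fun k _ => bsum_mono fun n m => add_le_add (mul_le_mul_of_nonneg_left
              (dls_le (psd_conj_symm (h.pG _ _ _ _) (psd_isSymm (h.pS _ _ _ _)))
                (psd_conj_symm (h.pG _ _ _ _) (psd_isSymm (h.pS _ _ _ _))) h.hμ hj hs)
              (by positivity)) le_rfl
        _ = 8 * τ ^ 2 * (s * ∑ k ∈ Ico k₀ (N - r), bsum N R S k (k + r + 1) (fun n m => SD μ J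
              (Sr k (k + r + 1) n m * G k (k + r) (2 * n) m * Sr k (k + r + 1) n m)
              (Sr k (k + r + 1) n m * G k (k + r) (2 * n + 1) m * Sr k (k + r + 1) n m)))
            + 12 * (τ * s) * (2 + τ * β⁻¹) * ∑ k ∈ Ico k₀ (N - r), bsum N R S k (k + r + 1)
              (fun n m => eQ (E k (k + r) n m) (M k (k + r) n m)
                (G k (k + r) (2 * n) m) (G k (k + r) (2 * n + 1) m)) := by
            simp only [bsum_add, bsum_smul, sum_add_distrib, ← mul_sum]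
        _ ≤ _ := add_le_add (mul_le_mul_of_nonneg_left (mul_le_mul_of_nonneg_left e1 hs0.le)
              (by positivity)) (mul_le_mul_of_nonneg_left e2 hc))
  set O := OwL J H ZM ZE Qm with hO
  have w1 : wl N (fun r => τ ^ 2 * (4 * s) * O r) = τ ^ 2 * (4 * s) * wl N O := wl_mul _ _ _
  have w2 : wl N (fun r => 8 * τ ^ 2 * (s * (4 * O r)) + 12 * (τ * s) * (2 + τ * β⁻¹) * ZQ r)
      = 32 * τ ^ 2 * s * wl N O + 12 * (τ * s) * (2 + τ * β⁻¹) * wl N ZQ := by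
    rw [← wl_mul, ← wl_mul, ← wl_add]
    congr 1
    funext r
    ring
  rw [w1, w2] at key
  have f1 : τ ^ 2 * s * H 0 ≤ τ ^ 2 * s * wl N O :=
    mul_le_mul_of_nonneg_left ((h.Ow_ge 0).trans (wl_ge h.Ow_nonneg)) (by positivity)
  refine key.trans ?_
  linarith

end fam

end

end Vale.Agent.P141.H190.TVpgL
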